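import Vale.Agent.P281.H150.Gen.Fac
import Vale.Agent.P281.H64.Gen.Spec

/-! P281, project T-V, block V1 (helper150): subsets of countable unions of thin closed sets. -/

open Set Filter Metric Vale.Agent.P281 Vale.Agent.P281.J Vale.Agent.P281.H713
open Vale.Agent.P281.H64.Thin (IsThinSet)
open Vale.Agent.P281.H64 (Cm)
open scoped Topology ContDiff Manifold

noncomputable section

namespace Vale.Agent.P281.H150.Gen

section

variable {E : Type} [NormedAddCommGroup E] [NormedSpace ℂ E] {Y : Type} [TopologicalSpace Y]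
  [ChartedSpace E Y]

theorem thin_empty : IsThinSet E (∅ : Set Y) := by
  refine ⟨isClosed_empty, fun y => ⟨fun _ => 1, contMDiffAt_const, ?_, ?_⟩⟩
  · intro h
    obtain ⟨_, h1⟩ := h.exists
    exact one_ne_zero h1
  · filter_upwards with z hz using absurd hz (by simp)

/-- A compact set which is locally in a hypersurface at its points is thin. -/
theorem thin_of_isClosed {K : Set Y} (hK : IsClosed K)
    (h : ∀ y ∈ K, ∃ g : Y → ℂ, HolAt E g y ∧ (¬ ∀ᶠ z in 𝓝 y, g z = 0) ∧
      ∀ᶠ z in 𝓝 y, z ∈ K → g z = 0) : IsThinSet E K := by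
  refine ⟨hK, fun y => ?_⟩
  by_cases hy : y ∈ K
  · exact h y hy
  · refine ⟨fun _ => 1, contMDiffAt_const, ?_, ?_⟩
    · intro h
      obtain ⟨_, h1⟩ := h.exists
      exact one_ne_zero h1
    · filter_upwards [hK.isOpen_compl.mem_nhds hy] with z hz hz' using absurd hz' hz

variable (E) in
/-- `S` is contained in a countable union of thin closed sets. -/
def SThin (S : Set Y) : Prop :=
  ∃ H : ℕ → Set Y, (∀ k, IsThinSet E (H k)) ∧ S ⊆ ⋃ k, H k

theorem SThin.mono {S T : Set Y} (hT : SThin E T) (h : S ⊆ T) : SThin E S := by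
  obtain ⟨H, h1, h2⟩ := hT
  exact ⟨H, h1, h.trans h2⟩

theorem SThin.of_thin {S T : Set Y} (hT : IsThinSet E T) (h : S ⊆ T) : SThin E S :=
  ⟨fun _ => T, fun _ => hT, h.trans (subset_iUnion (fun _ : ℕ => T) 0)⟩

theorem SThin.empty : SThin E (∅ : Set Y) := SThin.of_thin thin_empty subset_rfl

theorem SThin.iUnion {ι : Type} [Countable ι] {S : ι → Set Y} (h : ∀ i, SThin E (S i)) :
    SThin E (⋃ i, S i) := by
  rcases isEmpty_or_nonempty ι with hι | hι
  · rw [iUnion_of_empty]; exact SThin.empty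
  · choose H h1 h2 using h
    obtain ⟨e, he⟩ := exists_surjective_nat (ι × ℕ)
    refine ⟨fun k => H (e k).1 (e k).2, fun k => h1 _ _, ?_⟩
    intro y hy
    obtain ⟨i, hi⟩ := mem_iUnion.1 hy
    obtain ⟨k, hk⟩ := mem_iUnion.1 (h2 i hi)
    obtain ⟨m, hm⟩ := he (i, k)
    exact mem_iUnion.2 ⟨m, by simpa [hm] using hk⟩

theorem SThin.union {S T : Set Y} (hS : SThin E S) (hT : SThin E T) : SThin E (S ∪ T) := by
  rw [union_eq_iUnion]
  exact SThin.iUnion (fun b => by cases b <;> assumption)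

/-- Lindelöf: `SThin` of an image is a local property of the source. -/
theorem SThin.image_of_local {V : Type} [TopologicalSpace V] [SecondCountableTopology V] {F : V → Y}
    {T : Set V} (h : ∀ z ∈ T, ∃ N ∈ 𝓝 z, SThin E (F '' (T ∩ N))) : SThin E (F '' T) := by
  choose! N hN hS using h
  obtain ⟨t, ht, htc, hcov⟩ := TopologicalSpace.countable_cover_nhdsWithin
    (f := N) (s := T) (fun x hx => mem_nhdsWithin_of_mem_nhds (hN x hx))
  have := htc.to_subtype
  refine (SThin.iUnion (S := fun x : t => F '' (T ∩ N x)) (fun x => hS x (ht x.2))).mono ?_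
  rintro _ ⟨z, hz, rfl⟩
  obtain ⟨x, hx, hzx⟩ := mem_iUnion₂.1 (hcov hz)
  exact mem_iUnion.2 ⟨⟨x, hx⟩, z, ⟨hz, hzx⟩, rfl⟩

end

section

theorem holAt_iff {E : Type} [NormedAddCommGroup E] [NormedSpace ℂ E] {g : E → ℂ} {y : E} :
    HolAt E g y ↔ ContDiffAt ℂ ω g y := by
  unfold HolAt
  exact contMDiffAt_iff_contDiffAt

theorem holAt_of_analyticAt {E : Type} [NormedAddCommGroup E] [NormedSpace ℂ E] {g : E → ℂ} {y : E}
    (h : AnalyticAt ℂ g y) : HolAt E g y := holAt_iff.2 h.contDiffAt

theorem analyticAt_of_holAt {E : Type} [NormedAddCommGroup E] [NormedSpace ℂ E] {g : E → ℂ} {y : E}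
    (h : HolAt E g y) : AnalyticAt ℂ g y := (holAt_iff.1 h).analyticAt

/-- The projection `ℂ^(q+1) → ℂ^q`. -/
def pr (q : ℕ) : Cm (q + 1) →L[ℂ] Cm q :=
  ContinuousLinearMap.pi fun i => ContinuousLinearMap.proj i.castSucc

@[simp] theorem pr_apply (q : ℕ) (w : Cm (q + 1)) (i : Fin q) : pr q w i = w i.castSucc := rfl

theorem thin_preimage {q : ℕ} {H : Set (Cm q)} (hH : IsThinSet (Cm q) H) :
    IsThinSet (Cm (q + 1)) (pr q ⁻¹' H) := by
  refine ⟨hH.1.preimage (pr q).continuous, fun y => ?_⟩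
  obtain ⟨g, hg, hne, hs⟩ := hH.2 (pr q y)
  refine ⟨fun w => g (pr q w), ?_, ?_, ?_⟩
  · exact holAt_of_analyticAt
      (AnalyticAt.fun_comp (g := g) (f := pr q) (analyticAt_of_holAt hg) ((pr q).analyticAt y))
  · intro h
    apply hne
    have hc : Continuous (fun w : Cm q => (Fin.snoc w (y (Fin.last q)) : Cm (q + 1))) := by
      refine continuous_pi fun i => ?_
      refine Fin.lastCases ?_ (fun j => ?_) i
      · simpa using continuous_const
      · simpa using continuous_apply j
    have h0 : (Fin.snoc (pr q y) (y (Fin.last q)) : Cm (q + 1)) = y := by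
      funext i
      refine Fin.lastCases ?_ (fun j => ?_) i <;> simp
    have ht : Tendsto (fun w : Cm q => (Fin.snoc w (y (Fin.last q)) : Cm (q + 1)))
        (𝓝 (pr q y)) (𝓝 y) := by
      have := hc.tendsto (pr q y)
      rwa [h0] at this
    filter_upwards [ht.eventually h] with w hw
    have h1 : pr q (Fin.snoc w (y (Fin.last q)) : Cm (q + 1)) = w := by
      funext i; simp
    rwa [h1] at hw
  · exact (pr q).continuous.continuousAt.eventually hs

theorem sthin_preimage {q : ℕ} {S : Set (Cm q)} (hS : SThin (Cm q) S) :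
    SThin (Cm (q + 1)) (pr q ⁻¹' S) := by
  obtain ⟨H, h1, h2⟩ := hS
  refine ⟨fun k => pr q ⁻¹' (H k), fun k => thin_preimage (h1 k), ?_⟩
  rw [← preimage_iUnion]
  exact preimage_mono h2

/-- A compact piece of a graph is thin. -/
theorem thin_graph {q : ℕ} {K : Set (Cm (q + 1))} (hK : IsCompact K) {G : Cm q → ℂ}
    (hG : ∀ w ∈ K, AnalyticAt ℂ G (pr q w)) (h : ∀ w ∈ K, w (Fin.last q) = G (pr q w)) :
    IsThinSet (Cm (q + 1)) K := by
  refine thin_of_isClosed hK.isClosed fun y hy => ?_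
  refine ⟨fun w => w (Fin.last q) - G (pr q w), ?_, ?_, ?_⟩
  · apply holAt_of_analyticAt
    refine AnalyticAt.sub ?_ ?_
    · exact (ContinuousLinearMap.proj (R := ℂ) (φ := fun _ : Fin (q + 1) => ℂ)
        (Fin.last q)).analyticAt y
    · exact AnalyticAt.fun_comp (g := G) (f := pr q) (hG y hy) ((pr q).analyticAt y)
  · intro hz
    have hc : Tendsto (fun t : ℂ => y + t • (Pi.single (Fin.last q) 1 : Cm (q + 1))) (𝓝[≠] 0)
        (𝓝 y) := by
      have h1 : Continuous (fun t : ℂ => y + t • (Pi.single (Fin.last q) 1 : Cm (q + 1))) := by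
        fun_prop
      have := h1.tendsto 0
      simp only [zero_smul, add_zero] at this
      exact this.mono_left nhdsWithin_le_nhds
    obtain ⟨t, ht, ht0⟩ := ((hc.eventually hz).and self_mem_nhdsWithin).exists
    have h2 : pr q (y + t • (Pi.single (Fin.last q) 1 : Cm (q + 1))) = pr q y := by
      funext i
      simp [Pi.single_apply]
    have h3 : (y + t • (Pi.single (Fin.last q) 1 : Cm (q + 1))) (Fin.last q) =
        y (Fin.last q) + t := by simp
    simp only [h2] at ht
    rw [h3, h y hy, add_sub_cancel_left] at ht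
    exact ht0 ht
  · filter_upwards with w hw
    rw [h w hw, sub_self]

end

end Vale.Agent.P281.H150.Gen
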