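import Vale.Agent.P281.H150.Gen.SThin

/-! P281, project T-V, block V1 (helper150): the core lemma in vector spaces. -/

open Set Filter Metric Vale.Agent.P281 Vale.Agent.P281.J Vale.Agent.P281.H713
open Vale.Agent.P281.H64.Thin (IsThinSet)
open Vale.Agent.P281.H64 (Cm)
open scoped Topology ContDiff Manifold

noncomputable section

namespace Vale.Agent.P281.H150.Gen

/-- `A` is an analytic subset near every point of `W`. -/
def AnIn {V : Type} [NormedAddCommGroup V] [NormedSpace ℂ V] (W A : Set V) : Prop :=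
  ∀ z ∈ W, ∃ (U : Set V) (ι : Type) (h : ι → V → ℂ), IsOpen U ∧ z ∈ U ∧
    (∀ i, ∀ w ∈ U, AnalyticAt ℂ (h i) w) ∧ ∀ w ∈ U, w ∈ A ↔ ∀ i, h i w = 0

/-- `F|A` is nowhere submersive. -/
def NoSub {V : Type} [NormedAddCommGroup V] [NormedSpace ℂ V] {p : ℕ} (W A : Set V)
    (F : V → Cm p) : Prop :=
  ∀ (V' : Type) [NormedAddCommGroup V'] [NormedSpace ℂ V'] [FiniteDimensional ℂ V']
    (W' : Set V') (φ : V' → V), IsOpen W' → (∀ x ∈ W', AnalyticAt ℂ φ x ∧ φ x ∈ A ∩ W) →
    ∀ x ∈ W', ¬ Function.Surjective (fderiv ℂ (fun v => F (φ v)) x)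

theorem AnIn.comp {V V₁ : Type} [NormedAddCommGroup V] [NormedSpace ℂ V] [NormedAddCommGroup V₁]
    [NormedSpace ℂ V₁] {W A : Set V} (h : AnIn W A) {W₁ : Set V₁} (hW₁ : IsOpen W₁)
    {ψ : V₁ → V} (hψ : ∀ k ∈ W₁, AnalyticAt ℂ ψ k ∧ ψ k ∈ W) : AnIn W₁ (ψ ⁻¹' A) := by
  intro k hk
  obtain ⟨U, ι, g, hU, hkU, hg, hA⟩ := h (ψ k) (hψ k hk).2
  refine ⟨W₁ ∩ ψ ⁻¹' U, ι, fun i x => g i (ψ x), ?_, ⟨hk, hkU⟩, ?_, ?_⟩
  · exact ContinuousOn.isOpen_inter_preimage
      (fun x hx => (hψ x hx).1.continuousAt.continuousWithinAt) hW₁ hU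
  · intro i x hx
    exact AnalyticAt.fun_comp (g := g i) (f := ψ) (hg i _ hx.2) (hψ x hx.1).1
  · intro x hx
    exact hA (ψ x) hx.2

theorem AnIn.mono {V : Type} [NormedAddCommGroup V] [NormedSpace ℂ V] {W W' A : Set V}
    (h : AnIn W A) (hW : W' ⊆ W) : AnIn W' A := fun z hz => h z (hW hz)

theorem NoSub.comp {V V₁ : Type} [NormedAddCommGroup V] [NormedSpace ℂ V] [NormedAddCommGroup V₁]
    [NormedSpace ℂ V₁] [FiniteDimensional ℂ V₁] {p : ℕ} {W A : Set V} {F : V → Cm p}
    (h : NoSub W A F) {W₁ : Set V₁} {ψ : V₁ → V} (hψ : ∀ k ∈ W₁, AnalyticAt ℂ ψ k ∧ ψ k ∈ W) :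
    NoSub W₁ (ψ ⁻¹' A) (fun v => F (ψ v)) := by
  intro V' _ _ _ W' φ hW' hφ x hx
  exact h V' W' (fun v => ψ (φ v)) hW' (fun y hy =>
    ⟨AnalyticAt.fun_comp (g := ψ) (f := φ) (hψ _ (hφ y hy).2.2).1 (hφ y hy).1,
      (hφ y hy).2.1, (hψ _ (hφ y hy).2.2).2⟩) x hx

theorem NoSub.mono {V : Type} [NormedAddCommGroup V] [NormedSpace ℂ V] {p : ℕ} {W W' A : Set V}
    {F : V → Cm p} (h : NoSub W A F) (hW : W' ⊆ W) : NoSub W' A F := by
  intro V' _ _ _ W₁ φ hW₁ hφ x hx
  exact h V' W₁ φ hW₁ (fun y hy => ⟨(hφ y hy).1, (hφ y hy).2.1, hW (hφ y hy).2.2⟩) x hx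

/-- The points where `F` is not submersive form an analytic subset. -/
theorem anIn_crit {V : Type} [NormedAddCommGroup V] [NormedSpace ℂ V] [FiniteDimensional ℂ V]
    {q : ℕ} {W : Set V} (hW : IsOpen W) {F : V → Cm q} (hF : ∀ z ∈ W, AnalyticAt ℂ F z) :
    AnIn W {z | ¬ Function.Surjective (fderiv ℂ F z)} := by
  have : CompleteSpace V := FiniteDimensional.complete ℂ V
  intro z hz
  refine ⟨W, Fin q → V, fun v w => Matrix.det (Matrix.of fun i j => fderiv ℂ F w (v j) i), hW, hz,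
    ?_, ?_⟩
  · intro v w hw
    have h1 : ∀ i j, AnalyticAt ℂ (fun w => fderiv ℂ F w (v j) i) w := by
      intro i j
      have h2 := (hF w hw).fderiv
      have h3 : AnalyticAt ℂ (fun w => fderiv ℂ F w (v j)) w :=
        ((ContinuousLinearMap.apply ℂ (Cm q) (v j)).analyticAt _).fun_comp h2
      exact ((ContinuousLinearMap.proj (R := ℂ) (φ := fun _ : Fin q => ℂ) i).analyticAt _).fun_comp
        h3
    simp only [Matrix.det_apply', Matrix.of_apply]
    refine Finset.analyticAt_fun_sum _ fun σ _ => ?_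
    refine AnalyticAt.mul analyticAt_const ?_
    exact Finset.analyticAt_fun_prod _ fun i _ => h1 _ _
  · intro w hw
    simp only [mem_ofPred_eq]
    constructor
    · intro hns v
      by_contra hdet
      apply hns
      intro y
      set M : Matrix (Fin q) (Fin q) ℂ := Matrix.of fun i j => fderiv ℂ F w (v j) i with hM
      have hu : IsUnit M.det := isUnit_iff_ne_zero.2 hdet
      have h4 : M.mulVec (M⁻¹.mulVec y) = y := by
        rw [Matrix.mulVec_mulVec, Matrix.mul_nonsing_inv _ hu, Matrix.one_mulVec]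
      refine ⟨∑ j, (M⁻¹.mulVec y) j • v j, ?_⟩
      rw [map_sum]
      conv_rhs => rw [← h4]
      funext i
      simp only [map_smul, Finset.sum_apply, Pi.smul_apply, smul_eq_mul, Matrix.mulVec,
        dotProduct, hM, Matrix.of_apply]
      refine Finset.sum_congr rfl fun j _ => ?_
      ring
    · intro hdet hs
      choose v hv using fun j : Fin q => hs (Pi.single j 1)
      have h5 : (Matrix.of fun i j => fderiv ℂ F w (v j) i) = (1 : Matrix (Fin q) (Fin q) ℂ) := by
        ext i j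
        simp only [Matrix.of_apply, hv, Matrix.one_apply, Pi.single_apply]
      have h6 := hdet v
      rw [h5, Matrix.det_one] at h6
      exact one_ne_zero h6

/-- The last component of a map. -/
def lst (q : ℕ) : Cm (q + 1) →L[ℂ] ℂ := ContinuousLinearMap.proj (Fin.last q)

@[simp] theorem lst_apply (q : ℕ) (w : Cm (q + 1)) : lst q w = w (Fin.last q) := rfl

theorem ker_of_not_surj {V : Type} [NormedAddCommGroup V] [NormedSpace ℂ V] {q : ℕ}
    {L : V →L[ℂ] Cm (q + 1)} (h : ¬ Function.Surjective L)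
    (h' : Function.Surjective ((pr q).comp L)) (ξ : V) (hξ : (pr q).comp L ξ = 0) :
    (lst q).comp L ξ = 0 := by
  by_contra hne
  apply h
  intro w
  obtain ⟨η, hη⟩ := h' (pr q w)
  simp only [ContinuousLinearMap.comp_apply] at hξ hne hη
  set c := lst q (L ξ) with hc
  refine ⟨η + ((lst q w - lst q (L η)) / c) • ξ, ?_⟩
  rw [map_add, map_smul]
  funext i
  refine Fin.lastCases ?_ (fun j => ?_) i
  · show lst q (L η + ((lst q w - lst q (L η)) / c) • L ξ) = lst q w
    rw [map_add, map_smul, ← hc, smul_eq_mul, div_mul_cancel₀ _ hne]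
    ring
  · show pr q (L η + ((lst q w - lst q (L η)) / c) • L ξ) j = pr q w j
    rw [map_add, map_smul, hξ, hη, smul_zero, add_zero]

/-- The core lemma (V1 in vector spaces). -/
theorem core (p : ℕ) : ∀ (m : ℕ) (V : Type) [NormedAddCommGroup V] [NormedSpace ℂ V]
    [FiniteDimensional ℂ V], Module.finrank ℂ V = m → ∀ (W A : Set V) (F : V → Cm p), IsOpen W →
    (∀ z ∈ W, AnalyticAt ℂ F z) → AnIn W A → NoSub W A F → SThin (Cm p) (F '' (A ∩ W)) := by
  induction p with
  | zero =>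
    intro m V _ _ _ hm W A F hW hF hA hN
    have h1 : A ∩ W = ∅ := by
      by_contra hne
      obtain ⟨x, hx⟩ := nonempty_iff_ne_empty.2 hne
      refine hN V univ (fun _ => x) isOpen_univ (fun y _ => ⟨analyticAt_const, hx⟩) x trivial ?_
      intro y
      exact ⟨0, Subsingleton.elim _ _⟩
    rw [h1, image_empty]
    exact SThin.empty
  | succ q ihq =>
    intro m
    induction m using Nat.strong_induction_on with
    | _ m ihm =>
    intro V _ _ _ hm W A F hW hF hA hN
    have : CompleteSpace V := FiniteDimensional.complete ℂ V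
    have : ProperSpace V := FiniteDimensional.proper ℂ V
    have : SecondCountableTopology V := secondCountable_of_proper
    refine SThin.image_of_local fun v hv => ?_
    obtain ⟨U, ι, h, hU, hvU, hh, hAU⟩ := hA v hv.2
    by_cases hcase : ∃ i, ¬ ∀ᶠ z in 𝓝 v, h i z = 0
    · -- Case 1: `A` is locally contained in a hypersurface
      obtain ⟨i, hi⟩ := hcase
      obtain ⟨e, he⟩ := exists_order (hh i v hvU) hi
      obtain ⟨N, hN1, hNo, hvN⟩ := _root_.eventually_nhds_iff.1
        (he.and ((hU.eventually_mem hvU).and (hW.eventually_mem hv.2)))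
      refine ⟨N, hNo.mem_nhds hvN, ?_⟩
      set T : ℕ → Set V := fun k => {z | z ∈ A ∩ W ∩ N ∧ D (h i) e k z = 0 ∧
        fderiv ℂ (D (h i) e k) z ≠ 0} with hT
      have hsub : F '' (A ∩ W ∩ N) ⊆ ⋃ k, F '' (T k) := by
        rintro _ ⟨z, hz, rfl⟩
        have hz0 : h i z = 0 := (hAU z (hN1 z hz.2).2.1).1 hz.1.1 i
        obtain ⟨k, hk⟩ := (hN1 z hz.2).1 hz0
        exact mem_iUnion.2 ⟨k, z, ⟨hz, hk⟩, rfl⟩
      refine (SThin.iUnion (fun k => ?_)).mono hsub
      refine SThin.image_of_local fun z hz => ?_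
      have hzA : AnalyticAt ℂ (D (h i) e k) z := D_analytic (hh i z (hN1 z hz.1.2).2.1) k
      obtain ⟨W₁, ψ, hW₁, hψ, hcov⟩ := exists_param hzA hz.2.1 hz.2.2 (hW.mem_nhds hz.1.1.2)
      obtain ⟨N₁, hN₁, hN₁o, hzN₁⟩ := _root_.eventually_nhds_iff.1 hcov
      refine ⟨N₁, hN₁o.mem_nhds hzN₁, ?_⟩
      have hfin : Module.finrank ℂ (LinearMap.ker (fderiv ℂ (D (h i) e k) z : V →ₗ[ℂ] ℂ)) < m := by
        have h1 := LinearMap.finrank_range_add_finrank_ker
          (fderiv ℂ (D (h i) e k) z : V →ₗ[ℂ] ℂ)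
        have h2 : 0 < Module.finrank ℂ
            (LinearMap.range (fderiv ℂ (D (h i) e k) z : V →ₗ[ℂ] ℂ)) := by
          rw [Module.finrank_pos_iff_exists_ne_zero]
          obtain ⟨v', hv'⟩ : ∃ v', fderiv ℂ (D (h i) e k) z v' ≠ 0 := by
            by_contra hcon
            push Not at hcon
            exact hz.2.2 (ContinuousLinearMap.ext hcon)
          refine ⟨⟨_, LinearMap.mem_range_self _ v'⟩, ?_⟩
          intro hcon
          exact hv' (congrArg Subtype.val hcon)
        omega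
      have h3 := ihm _ hfin _ rfl W₁ (ψ ⁻¹' A) (fun x => F (ψ x)) hW₁
        (fun x hx => AnalyticAt.fun_comp (g := F) (f := ψ) (hF _ (hψ x hx).2) (hψ x hx).1)
        (hA.comp hW₁ hψ) (hN.comp hψ)
      refine h3.mono ?_
      rintro _ ⟨x, ⟨hxT, hxN⟩, rfl⟩
      obtain ⟨x₁, hx₁, rfl⟩ := hN₁ x hxN hxT.2.1
      exact ⟨x₁, ⟨hxT.1.1.1, hx₁⟩, rfl⟩
    · -- Case 2: `A` is a neighbourhood of `v`
      push Not at hcase
      obtain ⟨ρ, hρ, hB⟩ := Metric.mem_nhds_iff.1 (inter_mem (hU.mem_nhds hvU) (hW.mem_nhds hv.2))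
      have hBA : ∀ z ∈ ball v ρ, z ∈ A ∩ W := by
        intro z hz
        refine ⟨(hAU z (hB hz).1).2 fun i => ?_, (hB hz).2⟩
        have h1 : AnalyticOnNhd ℂ (h i) (ball v ρ) := fun w hw => hh i w (hB hw).1
        exact h1.eqOn_zero_of_preconnected_of_eventuallyEq_zero (convex_ball v ρ).isPreconnected
          (mem_ball_self hρ) (hcase i) hz
      have hns : ∀ z ∈ ball v ρ, ¬ Function.Surjective (fderiv ℂ F z) := fun z hz =>
        hN V (ball v ρ) (fun x => x) isOpen_ball (fun x hx => ⟨analyticAt_id, hBA x hx⟩) z hz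
      refine ⟨ball v ρ, ball_mem_nhds v hρ, ?_⟩
      have hFa : ∀ z ∈ ball v ρ, AnalyticAt ℂ F z := fun z hz => hF z (hB hz).2
      set F' : V → Cm q := fun z => pr q (F z) with hF'
      have hF'a : ∀ z ∈ ball v ρ, AnalyticAt ℂ F' z := fun z hz =>
        ((pr q).analyticAt _).fun_comp (hFa z hz)
      have hF'd : ∀ z ∈ ball v ρ, fderiv ℂ F' z = (pr q).comp (fderiv ℂ F z) := fun z hz =>
        ((pr q).hasFDerivAt.comp z (hFa z hz).differentiableAt.hasFDerivAt).fderiv
      have hGd : ∀ z ∈ ball v ρ, fderiv ℂ (fun z => lst q (F z)) z = (lst q).comp (fderiv ℂ F z) :=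
        fun z hz => ((lst q).hasFDerivAt.comp z (hFa z hz).differentiableAt.hasFDerivAt).fderiv
      set A' : Set V := {z | ¬ Function.Surjective (fderiv ℂ F' z)} with hA'
      have h1 : SThin (Cm q) (F' '' (A' ∩ ball v ρ)) := by
        refine ihq _ V rfl (ball v ρ) A' F' isOpen_ball hF'a (anIn_crit isOpen_ball hF'a) ?_
        intro V' _ _ _ W' φ hW' hφ x hx hsurj
        have h2 : fderiv ℂ (fun v => F' (φ v)) x = (fderiv ℂ F' (φ x)).comp (fderiv ℂ φ x) :=
          (((hF'a _ (hφ x hx).2.2).differentiableAt.hasFDerivAt).comp x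
            (hφ x hx).1.differentiableAt.hasFDerivAt).fderiv
        rw [h2] at hsurj
        exact (hφ x hx).2.1 (Function.Surjective.of_comp hsurj)
      have h2 : SThin (Cm (q + 1)) (F '' (ball v ρ \ A')) := by
        refine SThin.image_of_local fun z hz => ?_
        have hzs : Function.Surjective (fderiv ℂ F' z) := by
          by_contra hcon
          exact hz.2 hcon
        have hopen : ∀ᶠ x in 𝓝 z, x ∈ ball v ρ ∧ Function.Surjective (fderiv ℂ F' x) := by
          refine (isOpen_ball.eventually_mem hz.1).and ?_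
          obtain ⟨U₁, ι₁, h₁, hU₁, hzU₁, hh₁, hA₁⟩ := anIn_crit isOpen_ball hF'a z hz.1
          obtain ⟨i, hi⟩ : ∃ i, h₁ i z ≠ 0 := by
            by_contra hcon
            push Not at hcon
            exact hz.2 ((hA₁ z hzU₁).2 hcon)
          filter_upwards [hU₁.eventually_mem hzU₁, (hh₁ i z hzU₁).continuousAt.eventually_ne hi]
            with x hx1 hx2
          by_contra hcon
          exact hx2 ((hA₁ x hx1).1 hcon i)
        obtain ⟨G, hG, hGF⟩ := exists_factor (G := fun z => lst q (F z)) (hF'a z hz.1)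
          (((lst q).analyticAt _).fun_comp (hFa z hz.1)) hzs (by
            filter_upwards [hopen] with x hx ξ hξ
            rw [hGd x hx.1]
            rw [hF'd x hx.1] at hξ
            refine ker_of_not_surj (hns x hx.1) ?_ ξ hξ
            rw [← hF'd x hx.1]; exact hx.2)
        have hGe : ∀ᶠ x in 𝓝 z, AnalyticAt ℂ G (F' x) :=
          (hF'a z hz.1).continuousAt.eventually hG.eventually_analyticAt
        obtain ⟨K, hK, hKsub, hKc⟩ := local_compact_nhds
          (inter_mem (inter_mem (hGF : {x | lst q (F x) = G (F' x)} ∈ 𝓝 z)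
            (hGe : {x | AnalyticAt ℂ G (F' x)} ∈ 𝓝 z)) (isOpen_ball.mem_nhds hz.1))
        refine ⟨K, hK, ?_⟩
        have hthin : IsThinSet (Cm (q + 1)) (F '' K) := by
          refine thin_graph (G := G) (hKc.image_of_continuousOn fun x hx =>
            (hFa x (hKsub hx).2).continuousAt.continuousWithinAt) ?_ ?_
          · rintro _ ⟨x, hx, rfl⟩
            exact (hKsub hx).1.2
          · rintro _ ⟨x, hx, rfl⟩
            exact (hKsub hx).1.1
        exact SThin.of_thin hthin (image_mono inter_subset_right)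
      refine ((sthin_preimage h1).union h2).mono ?_
      rintro _ ⟨x, ⟨-, hx⟩, rfl⟩
      by_cases hxA : x ∈ A'
      · exact Or.inl ⟨x, ⟨hxA, hx⟩, rfl⟩
      · exact Or.inr ⟨x, ⟨hx, hxA⟩, rfl⟩

end Vale.Agent.P281.H150.Gen
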