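import Mathlib

/-! P281, project T-V, block V1 (helper150): local analysis of holomorphic maps between vector
spaces: straightening a submersion, factorisation through a submersion, zeros of a function. -/

open Set Filter Metric
open scoped ContDiff Topology Nat

noncomputable section

namespace Vale.Agent.P281.H150.Gen

section

variable {V W : Type} [NormedAddCommGroup V] [NormedSpace ℂ V] [FiniteDimensional ℂ V]
  [NormedAddCommGroup W] [NormedSpace ℂ W] [FiniteDimensional ℂ W]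

/-- Straightening a submersion. -/
theorem exists_straight {F : V → W} {z : V} (hF : AnalyticAt ℂ F z)
    (hs : Function.Surjective (fderiv ℂ F z)) :
    ∃ (κ : V →L[ℂ] LinearMap.ker (fderiv ℂ F z : V →ₗ[ℂ] W))
      (R : W × LinearMap.ker (fderiv ℂ F z : V →ₗ[ℂ] W) → V),
      AnalyticAt ℂ R (F z, κ z) ∧ R (F z, κ z) = z ∧
      (∀ᶠ q in 𝓝 (F z, κ z), F (R q) = q.1) ∧ ∀ᶠ x in 𝓝 z, R (F x, κ x) = x := by
  have : CompleteSpace V := FiniteDimensional.complete ℂ V
  set L := fderiv ℂ F z with hL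
  have hcl : (LinearMap.ker (L : V →ₗ[ℂ] W)).ClosedComplemented :=
    Submodule.ClosedComplemented.of_finiteDimensional_quotient L.isClosed_ker
  obtain ⟨κ, hκ⟩ := hcl
  set G : V → W × LinearMap.ker (L : V →ₗ[ℂ] W) := fun x => (F x, κ x) with hG
  have hGa : AnalyticAt ℂ G z := hF.prod (κ.analyticAt z)
  have hGc : ContDiffAt ℂ ω G z := hGa.contDiffAt
  have hGd : HasFDerivAt G (L.prod κ) z := hF.differentiableAt.hasFDerivAt.prodMk κ.hasFDerivAt
  have hbij : Function.Bijective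
      ((L.prod κ : V →L[ℂ] (W × LinearMap.ker (L : V →ₗ[ℂ] W))) :
        V →ₗ[ℂ] (W × LinearMap.ker (L : V →ₗ[ℂ] W))) := by
    constructor
    · rw [injective_iff_map_eq_zero]
      intro v hv
      have hv1 : L v = 0 := (Prod.mk.inj hv).1
      have hv2 : κ v = 0 := (Prod.mk.inj hv).2
      have h3 := hκ ⟨v, by simpa using hv1⟩
      simp only [hv2] at h3
      exact (congrArg Subtype.val h3).symm
    · rintro ⟨w, k⟩
      obtain ⟨v₀, hv₀⟩ := hs w
      refine ⟨v₀ + ((k : V) - (κ v₀ : V)), ?_⟩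
      have hk1 : L (k : V) = 0 := by simp
      have hk2 : L (κ v₀ : V) = 0 := by simp
      refine Prod.ext ?_ ?_
      · show L (v₀ + ((k : V) - (κ v₀ : V))) = w
        rw [map_add, map_sub, hk1, hk2, hv₀]; simp
      · show κ (v₀ + ((k : V) - (κ v₀ : V))) = k
        rw [map_add, map_sub, hκ, hκ]; simp
  let e : V ≃L[ℂ] (W × LinearMap.ker (L : V →ₗ[ℂ] W)) :=
    (LinearEquiv.ofBijective _ hbij).toContinuousLinearEquiv
  have he : (e : V →L[ℂ] (W × LinearMap.ker (L : V →ₗ[ℂ] W))) = L.prod κ := by ext v <;> rfl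
  have hGd' : HasFDerivAt G (e : V →L[ℂ] (W × LinearMap.ker (L : V →ₗ[ℂ] W))) z := by
    rw [he]; exact hGd
  have hn : (ω : WithTop ℕ∞) ≠ 0 := by simp
  set R := hGc.localInverse hGd' hn with hR
  have hRc : ContDiffAt ℂ ω R (G z) := hGc.to_localInverse hGd' hn
  have hstr : HasStrictFDerivAt G (e : V →L[ℂ] (W × LinearMap.ker (L : V →ₗ[ℂ] W))) z :=
    hGc.hasStrictFDerivAt' hGd' hn
  have hRr : ∀ᶠ w in 𝓝 (G z), G (R w) = w := hstr.eventually_right_inverse
  have hRl : ∀ᶠ v in 𝓝 z, R (G v) = v := hstr.eventually_left_inverse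
  have hR0 : R (G z) = z := hGc.localInverse_apply_image hGd' hn
  refine ⟨κ, R, ContDiffAt.analyticAt hRc, hR0, ?_, hRl⟩
  filter_upwards [hRr] with q hq
  exact congrArg Prod.fst hq

/-- A holomorphic function whose differential vanishes on the fibres of a submersion `F` is a
holomorphic function of `F`. -/
theorem exists_factor {F : V → W} {G : V → ℂ} {z : V} (hF : AnalyticAt ℂ F z)
    (hG : AnalyticAt ℂ G z) (hs : Function.Surjective (fderiv ℂ F z))
    (hk : ∀ᶠ x in 𝓝 z, ∀ ξ, fderiv ℂ F x ξ = 0 → fderiv ℂ G x ξ = 0) :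
    ∃ H : W → ℂ, AnalyticAt ℂ H (F z) ∧ ∀ᶠ x in 𝓝 z, G x = H (F x) := by
  have : CompleteSpace V := FiniteDimensional.complete ℂ V
  obtain ⟨κ, R, hRa, hR0, hRr, hRl⟩ := exists_straight hF hs
  have hRt : Tendsto R (𝓝 (F z, κ z)) (𝓝 z) := by
    have := hRa.continuousAt.tendsto
    rwa [hR0] at this
  have hev : ∀ᶠ q in 𝓝 (F z, κ z), F (R q) = q.1 ∧ AnalyticAt ℂ R q ∧
      (∀ ξ, fderiv ℂ F (R q) ξ = 0 → fderiv ℂ G (R q) ξ = 0) ∧ AnalyticAt ℂ G (R q) ∧
      AnalyticAt ℂ F (R q) :=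
    hRr.and (hRa.eventually_analyticAt.and ((hRt.eventually hk).and
      ((hRt.eventually hG.eventually_analyticAt).and (hRt.eventually hF.eventually_analyticAt))))
  obtain ⟨ρ, hρ, hball⟩ := Metric.eventually_nhds_iff_ball.1 hev
  have hconst : ∀ w ∈ ball (F z) ρ, ∀ k ∈ ball (κ z) ρ, G (R (w, k)) = G (R (w, κ z)) := by
    intro w hw k hk'
    have hmem : ∀ k ∈ ball (κ z) ρ, (w, k) ∈ ball (F z, κ z) ρ := by
      intro k hk
      rw [← ball_prod_same]
      exact ⟨hw, hk⟩
    have hι : ∀ k, HasFDerivAt (fun k : LinearMap.ker (fderiv ℂ F z : V →ₗ[ℂ] W) => (w, k))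
        (ContinuousLinearMap.inr ℂ W (LinearMap.ker (fderiv ℂ F z : V →ₗ[ℂ] W))) k := by
      intro k
      exact (hasFDerivAt_const w k).prodMk (hasFDerivAt_id k)
    have hder : ∀ k ∈ ball (κ z) ρ, HasFDerivAt (fun k => G (R (w, k)))
        ((fderiv ℂ G (R (w, k))).comp ((fderiv ℂ R (w, k)).comp
          (ContinuousLinearMap.inr ℂ W (LinearMap.ker (fderiv ℂ F z : V →ₗ[ℂ] W))))) k := by
      intro k hk
      obtain ⟨-, h2, -, h4, -⟩ := hball _ (hmem k hk)
      have h5 : HasFDerivAt (fun k => R (w, k)) ((fderiv ℂ R (w, k)).comp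
          (ContinuousLinearMap.inr ℂ W (LinearMap.ker (fderiv ℂ F z : V →ₗ[ℂ] W)))) k :=
        (h2.differentiableAt.hasFDerivAt).comp k (hι k)
      exact (h4.differentiableAt.hasFDerivAt).comp k h5
    refine (isOpen_ball (x := κ z) (ε := ρ)).is_const_of_fderiv_eq_zero
      (convex_ball _ _).isPreconnected (fun k hk => (hder k hk).differentiableAt.differentiableWithinAt)
      ?_ hk' (mem_ball_self hρ)
    intro k hk
    obtain ⟨h1, h2, h3, h4, h6⟩ := hball _ (hmem k hk)
    rw [(hder k hk).fderiv]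
    ext η
    show fderiv ℂ G (R (w, k)) (fderiv ℂ R (w, k) (0, η)) = 0
    apply h3
    have h5 : HasFDerivAt (fun k => F (R (w, k))) ((fderiv ℂ F (R (w, k))).comp
        ((fderiv ℂ R (w, k)).comp
          (ContinuousLinearMap.inr ℂ W (LinearMap.ker (fderiv ℂ F z : V →ₗ[ℂ] W))))) k :=
      (h6.differentiableAt.hasFDerivAt).comp k ((h2.differentiableAt.hasFDerivAt).comp k (hι k))
    have h7 : HasFDerivAt (fun k => F (R (w, k)))
        (0 : LinearMap.ker (fderiv ℂ F z : V →ₗ[ℂ] W) →L[ℂ] W) k := by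
      refine (hasFDerivAt_const w k).congr_of_eventuallyEq ?_
      filter_upwards [isOpen_ball.mem_nhds hk] with k' hk'
      exact (hball _ (hmem k' hk')).1
    have h8 := h5.unique h7
    exact congrArg (fun T : LinearMap.ker (fderiv ℂ F z : V →ₗ[ℂ] W) →L[ℂ] W => T η) h8
  refine ⟨fun w => G (R (w, κ z)), ?_, ?_⟩
  · have h1 : AnalyticAt ℂ (fun w : W => (w, κ z)) (F z) := analyticAt_id.prod analyticAt_const
    have h2 : AnalyticAt ℂ (fun w : W => R (w, κ z)) (F z) :=
      AnalyticAt.fun_comp (g := R) (f := fun w : W => (w, κ z)) hRa h1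
    exact AnalyticAt.fun_comp (g := G) (f := fun w : W => R (w, κ z)) (by
      show AnalyticAt ℂ G (R (F z, κ z))
      rw [hR0]; exact hG) h2
  · have hFt : Tendsto F (𝓝 z) (𝓝 (F z)) := hF.continuousAt.tendsto
    have hκt : Tendsto κ (𝓝 z) (𝓝 (κ z)) := κ.continuous.continuousAt.tendsto
    filter_upwards [hRl, hFt.eventually (ball_mem_nhds _ hρ), hκt.eventually (ball_mem_nhds _ hρ)]
      with x h1 h2 h3
    have h4 := hconst _ h2 _ h3
    rw [h1] at h4
    exact h4

/-- The smooth hypersurface `{u = 0}`, `du ≠ 0`, is locally contained in the image of a ball of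
smaller dimension. -/
theorem exists_param {u : V → ℂ} {z : V} (hu : AnalyticAt ℂ u z) (hu0 : u z = 0)
    (hd : fderiv ℂ u z ≠ 0) {N : Set V} (hN : N ∈ 𝓝 z) :
    ∃ (W₁ : Set (LinearMap.ker (fderiv ℂ u z : V →ₗ[ℂ] ℂ)))
      (ψ : LinearMap.ker (fderiv ℂ u z : V →ₗ[ℂ] ℂ) → V),
      IsOpen W₁ ∧ (∀ k ∈ W₁, AnalyticAt ℂ ψ k ∧ ψ k ∈ N) ∧
      ∀ᶠ x in 𝓝 z, u x = 0 → x ∈ ψ '' W₁ := by
  have hs : Function.Surjective (fderiv ℂ u z) := by
    obtain ⟨v, hv⟩ : ∃ v, fderiv ℂ u z v ≠ 0 := by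
      by_contra h
      push Not at h
      exact hd (ContinuousLinearMap.ext h)
    intro c
    exact ⟨(c / fderiv ℂ u z v) • v, by simp [hv]⟩
  obtain ⟨κ, R, hRa, hR0, hRr, hRl⟩ := exists_straight hu hs
  rw [hu0] at hRa hR0 hRr
  have hRt : Tendsto R (𝓝 (0, κ z)) (𝓝 z) := by
    have := hRa.continuousAt.tendsto
    rwa [hR0] at this
  have hj : Tendsto (fun k : LinearMap.ker (fderiv ℂ u z : V →ₗ[ℂ] ℂ) => ((0 : ℂ), k))
      (𝓝 (κ z)) (𝓝 (0, κ z)) := by
    exact (Continuous.prodMk continuous_const continuous_id).continuousAt.tendsto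
  have hev : ∀ᶠ k in 𝓝 (κ z), AnalyticAt ℂ R ((0 : ℂ), k) ∧ R ((0 : ℂ), k) ∈ N :=
    (hj.eventually hRa.eventually_analyticAt).and (hj.eventually (hRt.eventually hN))
  obtain ⟨W₁, hW₁, hW₁o, hzW₁⟩ := _root_.eventually_nhds_iff.1 hev
  refine ⟨W₁, fun k => R ((0 : ℂ), k), hW₁o, ?_, ?_⟩
  · intro k hk
    refine ⟨?_, (hW₁ k hk).2⟩
    exact AnalyticAt.fun_comp (g := R) (f := fun k => ((0 : ℂ), k)) (hW₁ k hk).1
      (analyticAt_const.prod analyticAt_id)
  · have hκt : Tendsto κ (𝓝 z) (𝓝 (κ z)) := κ.continuous.continuousAt.tendsto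
    filter_upwards [hRl, hκt.eventually (hW₁o.mem_nhds hzW₁)] with x h1 h2 h3
    refine ⟨κ x, h2, ?_⟩
    show R (0, κ x) = x
    rw [← h3, h1]

end

section

variable {V : Type} [NormedAddCommGroup V] [NormedSpace ℂ V]

/-- The iterated derivatives of `g` in the direction `e`. -/
def D (g : V → ℂ) (e : V) : ℕ → V → ℂ
  | 0 => g
  | k + 1 => fun z => fderiv ℂ (D g e k) z e

theorem D_analytic [FiniteDimensional ℂ V] {g : V → ℂ} {e z : V} (hg : AnalyticAt ℂ g z) (k : ℕ) :
    AnalyticAt ℂ (D g e k) z := by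
  have : CompleteSpace V := FiniteDimensional.complete ℂ V
  induction k with
  | zero => exact hg
  | succ k ih =>
    have h1 := ih.fderiv
    exact ((ContinuousLinearMap.apply ℂ ℂ e).analyticAt _).fun_comp h1

theorem iteratedDeriv_line [FiniteDimensional ℂ V] {g : V → ℂ} {e z : V} {r : ℝ}
    (hg : ∀ t ∈ ball (0 : ℂ) r, AnalyticAt ℂ g (z + t • e)) (k : ℕ) :
    ∀ t ∈ ball (0 : ℂ) r, iteratedDeriv k (fun t : ℂ => g (z + t • e)) t = D g e k (z + t • e) := by
  induction k with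
  | zero => intro t ht; simp [D]
  | succ k ih =>
    intro t ht
    rw [iteratedDeriv_succ]
    have h1 : iteratedDeriv k (fun t : ℂ => g (z + t • e)) =ᶠ[𝓝 t]
        fun t => D g e k (z + t • e) := by
      filter_upwards [isOpen_ball.mem_nhds ht] with s hs using ih s hs
    rw [h1.deriv_eq]
    have h2 : HasDerivAt (fun t : ℂ => z + t • e) e t := by
      have := ((hasDerivAt_id t).smul_const e).const_add z
      simpa using this
    have h3 : HasFDerivAt (D g e k) (fderiv ℂ (D g e k) (z + t • e)) (z + t • e) :=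
      (D_analytic (hg t ht) k).differentiableAt.hasFDerivAt
    exact (h3.comp_hasDerivAt t h2).deriv

/-- Zeros of a function which is not identically zero: near every point, they have finite order of
vanishing in a fixed direction. -/
theorem exists_order [FiniteDimensional ℂ V] {g : V → ℂ} {v : V} (hg : AnalyticAt ℂ g v)
    (hne : ¬ ∀ᶠ z in 𝓝 v, g z = 0) :
    ∃ e : V, ∀ᶠ z in 𝓝 v, g z = 0 → ∃ k, D g e k z = 0 ∧ fderiv ℂ (D g e k) z ≠ 0 := by
  obtain ⟨R, hR, hRg⟩ := Metric.eventually_nhds_iff_ball.1 hg.eventually_analyticAt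
  have h1 : ∃ z ∈ ball v (R / 4), g z ≠ 0 := by
    by_contra h
    push Not at h
    exact hne (Metric.eventually_nhds_iff_ball.2 ⟨R / 4, by positivity, h⟩)
  obtain ⟨z₁, hz₁, hgz₁⟩ := h1
  set e := z₁ - v with he
  have hen : ‖e‖ < R / 4 := by rwa [he, ← dist_eq_norm]
  have hc : ContinuousAt (fun z => g (z + e)) v := by
    have h2 : ContinuousAt g (v + e) := by
      have : v + e = z₁ := by rw [he]; abel
      rw [this]
      refine (hRg z₁ ?_).continuousAt
      exact ball_subset_ball (by linarith) hz₁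
    exact ContinuousAt.comp' (g := g) (f := fun z => z + e) h2 (by fun_prop)
  have h3 : ∀ᶠ z in 𝓝 v, g (z + e) ≠ 0 := by
    refine hc.eventually_ne ?_
    have : v + e = z₁ := by rw [he]; abel
    rw [this]; exact hgz₁
  refine ⟨e, ?_⟩
  filter_upwards [h3, ball_mem_nhds v (show (0 : ℝ) < R / 4 by positivity)] with z hz1 hz2 hz0
  have hline : ∀ t ∈ ball (0 : ℂ) 2, AnalyticAt ℂ g (z + t • e) := by
    intro t ht
    apply hRg
    rw [mem_ball, dist_eq_norm] at hz2 ⊢
    rw [mem_ball, dist_zero_right] at ht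
    calc ‖z + t • e - v‖ = ‖(z - v) + t • e‖ := by congr 1; abel
      _ ≤ ‖z - v‖ + ‖t • e‖ := norm_add_le _ _
      _ = ‖z - v‖ + ‖t‖ * ‖e‖ := by rw [norm_smul]
      _ < R := by nlinarith [norm_nonneg t, norm_nonneg e]
  have h4 : ∃ k, D g e k z ≠ 0 := by
    by_contra h
    push Not at h
    apply hz1
    have hdiff : DifferentiableOn ℂ (fun t : ℂ => g (z + t • e)) (ball 0 2) := by
      intro t ht
      have h2 : DifferentiableAt ℂ (fun t : ℂ => z + t • e) t := by fun_prop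
      exact ((hline t ht).differentiableAt.comp t h2).differentiableWithinAt
    have h5 := Complex.hasSum_taylorSeries_on_ball (E := ℂ) (c := 0) (r := 2) (z := 1)
      (f := fun t : ℂ => g (z + t • e)) (by simpa using hdiff) (by simp)
    have h6 : ∀ n, iteratedDeriv n (fun t : ℂ => g (z + t • e)) 0 = 0 := by
      intro n
      rw [iteratedDeriv_line hline n 0 (by simp)]
      simpa using h n
    simp only [h6, smul_zero] at h5
    have h7 := h5.unique hasSum_zero
    simpa using h7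
  obtain ⟨hk1, hk2⟩ := Nat.find_spec h4, fun m hm => Nat.find_min h4 (m := m) hm
  rcases hk : Nat.find h4 with _ | k
  · rw [hk] at hk1
    exact absurd hz0 hk1
  · refine ⟨k, ?_, ?_⟩
    · by_contra h
      exact hk2 k (by omega) h
    · intro h
      rw [hk] at hk1
      apply hk1
      show fderiv ℂ (D g e k) z e = 0
      rw [h]; rfl

end

end Vale.Agent.P281.H150.Gen
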