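import Vale.Agent.P281.H150.Gen.Core

/-! P281, project T-V, blocks V1 and V1' (helper150): the image of an analytic set on which a
holomorphic map is nowhere submersive is contained in a countable union of thin closed sets. -/

open Set Filter Metric Vale.Agent.P281 Vale.Agent.P281.J Vale.Agent.P281.H713
open Vale.Agent.P281.H64.Thin (IsThinSet)
open Vale.Agent.P281.H64 (Cm)
open Vale.Agent.P281.H64.Gen
open scoped Topology ContDiff Manifold

noncomputable section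

namespace Vale.Agent.P281.H150.Gen

theorem noSub_of {V : Type} [NormedAddCommGroup V] [NormedSpace ℂ V] {p : ℕ} {W A : Set V}
    {F : V → Cm p} (hF : ∀ z ∈ W, AnalyticAt ℂ F z)
    (H : ∀ (m : ℕ) (φ : Cm m → V), (∀ v ∈ ball (0 : Cm m) 1, AnalyticAt ℂ φ v ∧ φ v ∈ A ∩ W) →
      ∀ v ∈ ball (0 : Cm m) 1, ¬ Function.Surjective (fderiv ℂ (fun v => F (φ v)) v)) :
    NoSub W A F := by
  intro V' _ _ _ W' φ hW' hφ x hx hs
  obtain ⟨ρ, hρ, hB⟩ := Metric.isOpen_iff.1 hW' x hx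
  let e : Cm (Module.finrank ℂ V') ≃L[ℂ] V' := ContinuousLinearEquiv.ofFinrankEq (by simp)
  obtain ⟨C, hC, hCe⟩ : ∃ C : ℝ, 0 < C ∧ ∀ y, ‖e y‖ ≤ C * ‖y‖ :=
    ⟨‖(e : Cm (Module.finrank ℂ V') →L[ℂ] V')‖ + 1, by positivity, fun y =>
      ((e : Cm (Module.finrank ℂ V') →L[ℂ] V').le_opNorm y).trans
        (mul_le_mul_of_nonneg_right (by linarith) (norm_nonneg _))⟩
  set δ : ℂ := ((ρ / C : ℝ) : ℂ) with hδ
  have hρC : 0 < ρ / C := by positivity
  have hδ0 : δ ≠ 0 := by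
    rw [hδ]; exact_mod_cast hρC.ne'
  have hδn : ‖δ‖ = ρ / C := by
    rw [hδ, Complex.norm_real, Real.norm_of_nonneg hρC.le]
  set L : Cm (Module.finrank ℂ V') → V' := fun y => x + δ • e y with hL
  have hLx : L 0 = x := by simp [hL]
  have hLW : ∀ y ∈ ball (0 : Cm (Module.finrank ℂ V')) 1, L y ∈ W' := by
    intro y hy
    apply hB
    rw [mem_ball, dist_eq_norm]
    rw [mem_ball, dist_zero_right] at hy
    have h1 : L y - x = δ • e y := by simp [hL]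
    rw [h1, norm_smul, hδn]
    calc ρ / C * ‖e y‖ ≤ ρ / C * (C * ‖y‖) := by gcongr; exact hCe y
      _ = ρ * ‖y‖ := by field_simp
      _ < ρ * 1 := by gcongr
      _ = ρ := mul_one ρ
  have hLd : ∀ y, HasFDerivAt L (δ • (e : Cm (Module.finrank ℂ V') →L[ℂ] V')) y := by
    intro y
    exact ((e : Cm (Module.finrank ℂ V') →L[ℂ] V').hasFDerivAt.const_smul δ).const_add x
  have hLa : ∀ y, AnalyticAt ℂ L y := by
    intro y
    exact analyticAt_const.add (analyticAt_const.smul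
      ((e : Cm (Module.finrank ℂ V') →L[ℂ] V').analyticAt y))
  refine H _ (fun y => φ (L y)) (fun y hy => ⟨AnalyticAt.fun_comp (g := φ) (f := L)
    (hφ _ (hLW y hy)).1 (hLa y), (hφ _ (hLW y hy)).2⟩) 0 (mem_ball_self one_pos) ?_
  have h2 : AnalyticAt ℂ (fun v => F (φ v)) (L 0) := by
    rw [hLx]
    exact AnalyticAt.fun_comp (g := F) (f := φ) (hF _ (hφ x hx).2.2) (hφ x hx).1
  have h3 : HasFDerivAt (fun y => F (φ (L y))) ((fderiv ℂ (fun v => F (φ v)) (L 0)).comp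
      (δ • (e : Cm (Module.finrank ℂ V') →L[ℂ] V'))) 0 :=
    h2.differentiableAt.hasFDerivAt.comp 0 (hLd 0)
  rw [h3.fderiv, hLx]
  intro w
  obtain ⟨ξ, hξ⟩ := hs w
  refine ⟨e.symm (δ⁻¹ • ξ), ?_⟩
  have h4 : (δ • (e : Cm (Module.finrank ℂ V') →L[ℂ] V')) (e.symm (δ⁻¹ • ξ)) = ξ := by
    simp [smul_smul, hδ0]
  rw [ContinuousLinearMap.comp_apply, h4, hξ]

/-- **V1'** -/
theorem imgLoc : ImgLocStmt := by
  intro n p f A hf hA hφ
  have h1 : AnIn (ball (0 : Cm n) 1) A := hA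
  have h2 : ∀ z ∈ ball (0 : Cm n) 1, AnalyticAt ℂ f z := fun z hz => (hf z hz).analyticAt
  exact core p _ (Cm n) rfl (ball 0 1) A f isOpen_ball h2 h1
    (noSub_of h2 fun m φ h => hφ m φ fun v hv => ⟨(h v hv).1.contDiffAt, (h v hv).2⟩)

section

variable {E E' : Type} [NormedAddCommGroup E] [NormedSpace ℂ E] [NormedAddCommGroup E']
  [NormedSpace ℂ E'] [FiniteDimensional ℂ E'] {Y : Type} [TopologicalSpace Y] [T2Space Y]
  [ChartedSpace E' Y] [IsManifold 𝓘(ℂ, E') ω Y]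

theorem holAt_chart {y₀ y : Y} (hy : y ∈ (chartAt E' y₀).source) :
    ContMDiffAt 𝓘(ℂ, E') 𝓘(ℂ, E') ω (chartAt E' y₀) y :=
  contMDiffAt_of_mem_maximalAtlas (IsManifold.chart_mem_maximalAtlas y₀) hy

theorem holAt_symm {y₀ : Y} {w : E'} (hw : w ∈ (chartAt E' y₀).target) :
    ContMDiffAt 𝓘(ℂ, E') 𝓘(ℂ, E') ω (chartAt E' y₀).symm w :=
  contMDiffAt_symm_of_mem_maximalAtlas (IsManifold.chart_mem_maximalAtlas y₀) hw

/-- Thin sets of a chart give thin sets of the manifold. -/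
theorem thin_chart (y₀ : Y) {B : Set E'} (hB : IsCompact B) (hBt : B ⊆ (chartAt E' y₀).target)
    {H : Set E'} (hH : IsThinSet E' H) :
    IsThinSet E' ((chartAt E' y₀).symm '' (H ∩ B)) := by
  set ψ := chartAt E' y₀ with hψ
  have hc : IsCompact (ψ.symm '' (H ∩ B)) :=
    (hB.inter_left hH.1).image_of_continuousOn fun w hw =>
      (ψ.continuousOn_symm.mono hBt w hw.2).mono inter_subset_right
  refine thin_of_isClosed hc.isClosed ?_
  rintro _ ⟨w, hw, rfl⟩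
  have hwt : w ∈ ψ.target := hBt hw.2
  obtain ⟨g, hg, hne, hs⟩ := hH.2 w
  have hψt : Tendsto ψ (𝓝 (ψ.symm w)) (𝓝 w) := by
    have := (ψ.continuousAt (ψ.map_target hwt)).tendsto
    rwa [ψ.right_inv hwt] at this
  refine ⟨fun y => g (ψ y), ?_, ?_, ?_⟩
  · have h1 : ContMDiffAt 𝓘(ℂ, E') 𝓘(ℂ, ℂ) ω g (ψ (ψ.symm w)) := by
      rw [ψ.right_inv hwt]; exact hg
    exact ContMDiffAt.comp (ψ.symm w) h1 (holAt_chart (ψ.map_target hwt))
  · intro h
    apply hne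
    have h2 : Tendsto ψ.symm (𝓝 w) (𝓝 (ψ.symm w)) :=
      (ψ.continuousAt_symm hwt).tendsto
    filter_upwards [h2.eventually h, ψ.open_target.eventually_mem hwt] with w' h3 h4
    rwa [ψ.right_inv h4] at h3
  · filter_upwards [hψt.eventually hs] with y hy hyB
    obtain ⟨w', hw', rfl⟩ := hyB
    rw [ψ.right_inv (hBt hw'.2)] at hy ⊢
    exact hy hw'.1

/-- Surjectivity of the derivative does not see the chart. -/
theorem surj_of_chart {V : Type} [NormedAddCommGroup V] [NormedSpace ℂ V] {y₀ : Y} {g : V → Y}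
    {v : V} (hg : ContMDiffAt 𝓘(ℂ, V) 𝓘(ℂ, E') ω g v) (hv : g v ∈ (chartAt E' y₀).source)
    (h : Function.Surjective (fderiv ℂ (fun v => chartAt E' y₀ (g v)) v)) :
    Function.Surjective (mfderiv 𝓘(ℂ, V) 𝓘(ℂ, E') g v) := by
  have hn : (ω : WithTop ℕ∞) ≠ 0 := by simp
  have h1 : mfderiv 𝓘(ℂ, V) 𝓘(ℂ, E') (fun v => chartAt E' y₀ (g v)) v =
      (mfderiv 𝓘(ℂ, E') 𝓘(ℂ, E') (chartAt E' y₀) (g v)).comp (mfderiv 𝓘(ℂ, V) 𝓘(ℂ, E') g v) :=
    mfderiv_comp v ((holAt_chart hv).mdifferentiableAt hn) (hg.mdifferentiableAt hn)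
  rw [mfderiv_eq_fderiv] at h1
  rw [h1] at h
  intro w
  obtain ⟨ξ, hξ⟩ := h (mfderiv 𝓘(ℂ, E') 𝓘(ℂ, E') (chartAt E' y₀) (g v) w)
  refine ⟨ξ, ?_⟩
  exact (mdifferentiable_chart (I := 𝓘(ℂ, E')) y₀).mfderiv_injective hv hξ

end

/-- **V1** -/
theorem img : ImgStmt := by
  intro n p X Y _ _ _ _ _ _ _ _ _ f A hf hA hφ
  show SThin (Cm p) (f '' A)
  have hloc : ∀ x : X, ∃ N ∈ 𝓝 x, SThin (Cm p) (f '' (A ∩ N)) := by
    intro x
    set φ := chartAt (Cm n) x with hφx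
    set ψ := chartAt (Cm p) (f x) with hψy
    set W : Set (Cm n) := φ.target ∩ φ.symm ⁻¹' (f ⁻¹' ψ.source) with hW
    have hWo : IsOpen W := by
      refine ContinuousOn.isOpen_inter_preimage φ.continuousOn_symm φ.open_target ?_
      exact ψ.open_source.preimage hf.continuous
    set F : Cm n → Cm p := fun v => ψ (f (φ.symm v)) with hF
    have hFm : ∀ v ∈ W, ContMDiffAt 𝓘(ℂ, Cm n) 𝓘(ℂ, Cm p) ω (fun v => f (φ.symm v)) v :=
      fun v hv => ContMDiffAt.comp v (hf _) (holAt_symm hv.1)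
    have hFa : ∀ v ∈ W, AnalyticAt ℂ F v := by
      intro v hv
      have h1 : ContMDiffAt 𝓘(ℂ, Cm n) 𝓘(ℂ, Cm p) ω F v :=
        ContMDiffAt.comp v (holAt_chart hv.2) (hFm v hv)
      exact (contMDiffAt_iff_contDiffAt.1 h1).analyticAt
    have hAn : AnIn W (φ.symm ⁻¹' A) := by
      intro v hv
      obtain ⟨U, ι, h, hU, hvU, hh, hAU⟩ := hA (φ.symm v)
      refine ⟨W ∩ φ.symm ⁻¹' U, ι, fun i w => h i (φ.symm w), ?_, ⟨hv, hvU⟩, ?_, ?_⟩
      · exact ContinuousOn.isOpen_inter_preimage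
          (φ.continuousOn_symm.mono inter_subset_left) hWo hU
      · intro i w hw
        have h1 : ContMDiffAt 𝓘(ℂ, Cm n) 𝓘(ℂ, ℂ) ω (fun w => h i (φ.symm w)) w :=
          ContMDiffAt.comp w (hh i _ hw.2) (holAt_symm hw.1.1)
        exact (contMDiffAt_iff_contDiffAt.1 h1).analyticAt
      · intro w hw
        exact hAU _ hw.2
    have hNS : NoSub W (φ.symm ⁻¹' A) F := by
      refine noSub_of hFa fun m θ hθ v hv hs => ?_
      have h1 : ∀ v ∈ ball (0 : Cm m) 1,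
          ContMDiffAt 𝓘(ℂ, Cm m) 𝓘(ℂ, Cm n) ω (fun v => φ.symm (θ v)) v := fun v hv =>
        ContMDiffAt.comp v (holAt_symm (hθ v hv).2.2.1)
          (contMDiffAt_iff_contDiffAt.2 (hθ v hv).1.contDiffAt)
      refine hφ m (fun v => φ.symm (θ v)) (fun v hv => ⟨h1 v hv, (hθ v hv).2.1⟩) v hv ?_
      exact surj_of_chart (y₀ := f x) (g := fun v => f (φ.symm (θ v)))
        (ContMDiffAt.comp v (hf _) (h1 v hv)) (hθ v hv).2.2.2 hs
    have hS := core p _ (Cm n) rfl W (φ.symm ⁻¹' A) F hWo hFa hAn hNS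
    obtain ⟨H, hH, hcov⟩ := hS
    have hyt : ψ (f x) ∈ ψ.target := ψ.map_source (mem_chart_source _ _)
    obtain ⟨ρ, hρ, hρt⟩ := Metric.nhds_basis_closedBall.mem_iff.1 (ψ.open_target.mem_nhds hyt)
    refine ⟨{x' | x' ∈ φ.source ∧ f x' ∈ ψ.source ∧ ψ (f x') ∈ closedBall (ψ (f x)) ρ}, ?_, ?_⟩
    · have h1 : ∀ᶠ x' in 𝓝 x, f x' ∈ ψ.source :=
        hf.continuous.continuousAt.eventually (ψ.open_source.eventually_mem (mem_chart_source _ _))
      have h2 : ContinuousAt (fun x' => ψ (f x')) x :=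
        ContinuousAt.comp (g := ψ) (ψ.continuousAt (mem_chart_source _ _))
          hf.continuous.continuousAt
      exact (φ.open_source.eventually_mem (mem_chart_source _ _)).and
        (h1.and (h2.eventually (closedBall_mem_nhds _ hρ)))
    · refine ⟨fun k => ψ.symm '' (H k ∩ closedBall (ψ (f x)) ρ), fun k =>
        thin_chart (f x) (isCompact_closedBall _ _) hρt (hH k), ?_⟩
      rintro _ ⟨x', ⟨hx'A, hx'1, hx'2, hx'3⟩, rfl⟩
      have h1 : φ.symm (φ x') = x' := φ.left_inv hx'1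
      have h2 : ψ (f x') ∈ F '' (φ.symm ⁻¹' A ∩ W) := by
        refine ⟨φ x', ⟨?_, φ.map_source hx'1, ?_⟩, ?_⟩
        · show φ.symm (φ x') ∈ A
          rw [h1]; exact hx'A
        · show f (φ.symm (φ x')) ∈ ψ.source
          rw [h1]; exact hx'2
        · show ψ (f (φ.symm (φ x'))) = ψ (f x')
          rw [h1]
      obtain ⟨k, hk⟩ := mem_iUnion.1 (hcov h2)
      exact mem_iUnion.2 ⟨k, ψ (f x'), ⟨hk, hx'3⟩, ψ.left_inv hx'2⟩
  choose N hN hS using hloc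
  obtain ⟨t, ht⟩ := CompactSpace.elim_nhds_subcover N hN
  refine (SThin.iUnion (S := fun x : t => f '' (A ∩ N x)) fun x => hS x).mono ?_
  rintro _ ⟨x, hx, rfl⟩
  have h1 : x ∈ ⋃ y ∈ t, N y := by rw [ht]; trivial
  obtain ⟨y, hy, hxy⟩ := mem_iUnion₂.1 h1
  exact mem_iUnion.2 ⟨⟨y, hy⟩, x, ⟨hx, hxy⟩, rfl⟩

end Vale.Agent.P281.H150.Gen
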